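import Mathlib
import Vale.Agent.Lib.P162.Defs
import Vale.Agent.Lib.P162.RDefs
import Vale.Agent.Lib.P162.helper23.ProdTv

/-!
# P162-R1 (pool job 305, second copy by helper59): the `j` old cards of the `(j+1)`-card chain
evolve as the `j`-card chain.
-/

namespace Vale.Agent.Lib.P162.H59

open Finset BigOperators

theorem cons_eq_iff {α : Type*} {j : ℕ} (z : Fin (j + 1) → α) (q : α) (v : Fin j → α) :
    z = (Fin.cons q v : Fin (j + 1) → α) ↔ z 0 = q ∧ Fin.tail z = v := by
  constructor
  · rintro rfl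
    exact ⟨rfl, rfl⟩
  · rintro ⟨rfl, rfl⟩
    exact (Fin.cons_self_tail z).symm

/-- One step: summing the `(j+1)`-card kernel over the target position of the new card gives the
`j`-card kernel of the old cards. -/
theorem step_lump_tail (h j : ℕ) [NeZero h] (z : Fin (j + 1) → ZMod (2 * h))
    (v : Fin j → ZMod (2 * h)) :
    ∑ q : ZMod (2 * h), Kmat h (j + 1) z (Fin.cons q v : Fin (j + 1) → ZMod (2 * h))
      = Kmat h j (Fin.tail z) v := by
  show ∑ q : ZMod (2 * h),
      ((univ.filter fun c : ZMod h → Bool =>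
        ∀ i, move h c (z i) = (Fin.cons q v : Fin (j + 1) → ZMod (2 * h)) i).card : ℝ) / 2 ^ h
    = ((univ.filter fun c : ZMod h → Bool =>
        ∀ i, move h c (Fin.tail z i) = v i).card : ℝ) / 2 ^ h
  rw [← Finset.sum_div]
  congr 1
  rw [← Nat.cast_sum]
  congr 1
  rw [Finset.card_eq_sum_card_fiberwise (f := fun c : ZMod h → Bool => move h c (z 0))
    (t := (univ : Finset (ZMod (2 * h))))]
  · refine Finset.sum_congr rfl fun q _ => ?_
    congr 1
    ext c
    simp only [mem_filter, mem_univ, true_and]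
    constructor
    · intro hc
      refine ⟨fun i => ?_, ?_⟩
      · have := hc i.succ
        rw [Fin.cons_succ] at this
        exact this
      · have := hc 0
        rw [Fin.cons_zero] at this
        exact this
    · rintro ⟨hc, h0⟩ i
      refine Fin.cases ?_ (fun i' => ?_) i
      · rw [Fin.cons_zero]
        exact h0
      · rw [Fin.cons_succ]
        exact hc i'
  · intro c _
    exact mem_univ _

theorem lump_tail (h j : ℕ) [NeZero h] (s : ℕ) (z : Fin (j + 1) → ZMod (2 * h))
    (v : Fin j → ZMod (2 * h)) :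
    ∑ q : ZMod (2 * h), (Kmat h (j + 1) ^ s) z (Fin.cons q v : Fin (j + 1) → ZMod (2 * h))
      = (Kmat h j ^ s) (Fin.tail z) v := by
  induction s generalizing z with
  | zero =>
    rw [pow_zero, pow_zero, Matrix.one_apply]
    have h1 : ∀ q : ZMod (2 * h),
        (1 : Matrix (Fin (j + 1) → ZMod (2 * h)) (Fin (j + 1) → ZMod (2 * h)) ℝ) z
          (Fin.cons q v : Fin (j + 1) → ZMod (2 * h))
        = if z 0 = q then (if Fin.tail z = v then (1 : ℝ) else 0) else 0 := by
      intro q
      rw [Matrix.one_apply]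
      by_cases h0 : z 0 = q
      · by_cases ht : Fin.tail z = v
        · rw [if_pos h0, if_pos ht, if_pos ((cons_eq_iff z q v).mpr ⟨h0, ht⟩)]
        · rw [if_pos h0, if_neg ht, if_neg (fun h' => ht ((cons_eq_iff z q v).mp h').2)]
      · rw [if_neg h0, if_neg (fun h' => h0 ((cons_eq_iff z q v).mp h').1)]
    rw [Finset.sum_congr rfl fun q _ => h1 q, Finset.sum_ite_eq, if_pos (mem_univ _)]
  | succ s ih =>
    rw [pow_succ', pow_succ']
    have h1 : ∀ q : ZMod (2 * h),
        (Kmat h (j + 1) * Kmat h (j + 1) ^ s) z (Fin.cons q v : Fin (j + 1) → ZMod (2 * h))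
        = ∑ u : Fin (j + 1) → ZMod (2 * h), Kmat h (j + 1) z u
            * (Kmat h (j + 1) ^ s) u (Fin.cons q v : Fin (j + 1) → ZMod (2 * h)) := by
      intro q
      rw [Matrix.mul_apply]
    rw [Finset.sum_congr rfl fun q _ => h1 q, Finset.sum_comm]
    have h2 : ∀ u : Fin (j + 1) → ZMod (2 * h),
        ∑ q : ZMod (2 * h), Kmat h (j + 1) z u
            * (Kmat h (j + 1) ^ s) u (Fin.cons q v : Fin (j + 1) → ZMod (2 * h))
        = Kmat h (j + 1) z u * (Kmat h j ^ s) (Fin.tail u) v := by
      intro u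
      rw [← Finset.mul_sum, ih u]
    rw [Finset.sum_congr rfl fun u _ => h2 u]
    rw [H23.sum_fin_succ_fun j
      (fun u : Fin (j + 1) → ZMod (2 * h) => Kmat h (j + 1) z u * (Kmat h j ^ s) (Fin.tail u) v)]
    rw [Finset.sum_comm, Matrix.mul_apply]
    refine Finset.sum_congr rfl fun w _ => ?_
    rw [← step_lump_tail h j z w, Finset.sum_mul]
    refine Finset.sum_congr rfl fun p _ => ?_
    show Kmat h (j + 1) z (Fin.cons p w : Fin (j + 1) → ZMod (2 * h))
        * (Kmat h j ^ s) (Fin.tail (Fin.cons p w : Fin (j + 1) → ZMod (2 * h))) v = _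
    rw [Fin.tail_cons]

end Vale.Agent.Lib.P162.H59
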